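import Vale.Agent.P228.H491.Defs
import Vale.Agent.P228.H491.Equi
import Vale.Agent.P228.H951.Loc

/-!
# P228: the Hilbert-Smith conjecture, Newman's theorem and isometry groups

`result`: (1) `ℤ_p` has no faithful continuous action on a connected manifold, and subgroups near
the identity of a locally compact group act trivially; (2) Newman's
theorem for all compact groups on every connected manifold with a metric: for every nonempty open
set `O` there is `ε > 0` such that a compact group moving all points of `O` by less than `ε` acts
trivially; (3) isometry groups: for every metric with compact closed balls on a connected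
manifold, small groups of isometries are trivial, and the isometry group, with pointwise
convergence, is a locally compact group without small subgroups, and a closed subgroup of some
`U(N)` if the manifold is compact; (4) equicontinuous groups of homeomorphisms of compact connected
manifolds; (5) totally disconnected locally compact groups act with open kernel.
-/

namespace Vale.Agent.Results.P228.IsometryGroups

open Topology Metric Vale.Agent.P228.H491

universe u v

theorem result :
    -- (1) the `ℤ_p` form of the conjecture
    (∀ (n p : ℕ) [Fact p.Prime] (M : Type u) [TopologicalSpace M] [T2Space M]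
      [SecondCountableTopology M] [ConnectedSpace M] [ChartedSpace (EuclideanSpace ℝ (Fin n)) M]
      [AddAction ℤ_[p] M] [ContinuousVAdd ℤ_[p] M], ¬ FaithfulVAdd ℤ_[p] M) ∧
    -- and, for all locally compact groups, faithful or not: small subgroups act trivially
    (∀ (n : ℕ) (M : Type u) [TopologicalSpace M], ConnManifold n M → ∀ (G : Type v) [Group G]
      [TopologicalSpace G] [IsTopologicalGroup G] [T2Space G] [LocallyCompactSpace G]
      [MulAction G M] [ContinuousSMul G M],
      ∃ U ∈ 𝓝 (1 : G), ∀ H : Subgroup G, (H : Set G) ⊆ U → ∀ h ∈ H, ∀ x : M, h • x = x) ∧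
    -- (2) Newman's theorem for all compact groups at once, on connected manifolds with a metric
    (∀ (n : ℕ) (M : Type u) [MetricSpace M], ConnManifold n M → ∀ O : Set M, IsOpen O →
      O.Nonempty → ∃ ε > (0 : ℝ), NewmanProperty.{u, v} M O ε) ∧
    -- (3) isometry groups, with the topology of pointwise convergence
    (∀ (n : ℕ) (M : Type u) [MetricSpace M] [ProperSpace M], ConnManifold n M →
      (∀ O : Set M, IsOpen O → O.Nonempty → ∃ ε > (0 : ℝ), NewmanIsometries M O ε) ∧
      letI : TopologicalSpace (M ≃ᵢ M) := isoTop M
      IsTopologicalGroup (M ≃ᵢ M) ∧ LocallyCompactSpace (M ≃ᵢ M) ∧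
      (Continuous fun q : (M ≃ᵢ M) × M => q.1 q.2) ∧ NoSmallSubgroups (M ≃ᵢ M) ∧
      (CompactSpace M → ClosedLinear (M ≃ᵢ M))) ∧
    -- (4) equicontinuous groups of homeomorphisms of compact connected manifolds
    (∀ (n : ℕ) (M : Type u) [MetricSpace M] [CompactSpace M], ConnManifold n M →
      EquicontinuousLinear M ∧
      (∀ O : Set M, IsOpen O → O.Nonempty → ∃ ε > (0 : ℝ), NewmanEquicontinuous M O ε)) ∧
    -- (5) totally disconnected groups act with open kernel
    (∀ (n : ℕ) (M : Type u) [TopologicalSpace M], ConnManifold n M → ∀ (G : Type v) [Group G]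
      [TopologicalSpace G] [IsTopologicalGroup G] [LocallyCompactSpace G]
      [TotallyDisconnectedSpace G] [MulAction G M] [ContinuousSMul G M],
      IsOpen ((MulAction.toPermHom G M).ker : Set G) ∧
      (CompactSpace G → (MulAction.toPermHom G M).ker.FiniteIndex)) := by
  refine ⟨?_, ?_, ?_, ?_, ?_, ?_⟩
  · intro n p _ M _ _ _ _ _ _ _
    exact Vale.Agent.P228.GRL.hilbertSmith_of_localNewman (Vale.Agent.P228.H951.localNewman p n)
  · rintro n M _ ⟨_, _, ⟨_⟩⟩ G _ _ _ _ _ _ _
    exact small_trivial n M G
  · rintro n M _ ⟨_, _, ⟨_⟩⟩ O hO hne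
    exact newman_compact n hO hne
  · rintro n M _ _ ⟨_, _, ⟨_⟩⟩
    exact ⟨fun O hO hne => iso_newman n hO hne, iso_nss n⟩
  · rintro n M _ _ ⟨_, _, ⟨_⟩⟩
    exact equi n M
  · rintro n M _ ⟨_, _, ⟨_⟩⟩ G _ _ _ _ _ _ _
    have h1 : IsOpen ((MulAction.toPermHom G M).ker : Set G) := by
      have h2 := Vale.Agent.P228.H615.isOpen_kernel (M := M) n G
      convert h2 using 1
      ext g
      show g ∈ (MulAction.toPermHom G M).ker ↔ _
      rw [MonoidHom.mem_ker]
      constructor
      · intro h m
        exact congrArg (fun σ : Equiv.Perm M => σ m) h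
      · intro h
        exact Equiv.ext fun m => h m
    refine ⟨h1, fun _ => ?_⟩
    have h3 : Finite (G ⧸ (MulAction.toPermHom G M).ker) :=
      Subgroup.quotient_finite_of_isOpen _ h1
    exact Subgroup.finiteIndex_of_finite_quotient

end Vale.Agent.Results.P228.IsometryGroups
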