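import Vale.Agent.P228.H951.Loc
import Vale.Agent.P228.H951.Final
import Vale.Agent.P228.H752.CH
import Vale.Agent.P228.H951.PW
import Vale.Agent.P228.H796.Cpt

/-!
# P228: the Hilbert-Smith conjecture for all locally compact groups: no small subgroups

`result`: (1) `ℤ_p` has no faithful continuous action on a connected manifold; (2) a topological
group acting faithfully and continuously on a connected manifold has no small compact subgroups; if
it is locally compact it has no small subgroups; if moreover it is totally disconnected it is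
discrete; if it is compact it is a closed subgroup of a unitary group; (3) Newman's theorem for all
compact groups, with a constant that depends on the dimension only.
-/

namespace Vale.Agent.Results.P228.NoSmallSubgroups

open Topology Metric

universe u v

theorem result :
    -- (1) the `ℤ_p` form of the conjecture
    (∀ (n p : ℕ) [Fact p.Prime] (M : Type u) [TopologicalSpace M] [T2Space M]
      [SecondCountableTopology M] [ConnectedSpace M] [ChartedSpace (EuclideanSpace ℝ (Fin n)) M]
      [AddAction ℤ_[p] M] [ContinuousVAdd ℤ_[p] M], ¬ FaithfulVAdd ℤ_[p] M) ∧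
    -- (2) arbitrary groups
    (∀ (n : ℕ) (M : Type u) [TopologicalSpace M] [T2Space M] [ConnectedSpace M]
      [ChartedSpace (EuclideanSpace ℝ (Fin n)) M] (G : Type v) [Group G] [TopologicalSpace G]
      [IsTopologicalGroup G] [MulAction G M] [ContinuousSMul G M] [FaithfulSMul G M],
      (∃ U ∈ 𝓝 (1 : G), ∀ K : Subgroup G, IsCompact (K : Set G) → (K : Set G) ⊆ U → K = ⊥) ∧
      (LocallyCompactSpace G →
        ∃ U ∈ 𝓝 (1 : G), ∀ H : Subgroup G, (H : Set G) ⊆ U → H = ⊥) ∧
      (LocallyCompactSpace G → TotallyDisconnectedSpace G → DiscreteTopology G) ∧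
      (CompactSpace G → ∃ (N : ℕ) (φ : G →* Matrix.unitaryGroup (Fin N) ℂ),
        Topology.IsClosedEmbedding φ)) ∧
    -- (3) Newman's theorem for compact groups, with a constant depending only on the dimension
    (∀ n : ℕ, ∃ c > (0 : ℝ), ∀ (K : Type v) [Group K] [TopologicalSpace K]
      [IsTopologicalGroup K] [CompactSpace K] [T2Space K]
      (W : Set (EuclideanSpace ℝ (Fin n))) [MulAction K W] [ContinuousSMul K W], IsOpen W →
      ∀ hW : closedBall (0 : EuclideanSpace ℝ (Fin n)) 1 ⊆ W,
      (∀ (k : K) (x : W), ‖(x : EuclideanSpace ℝ (Fin n))‖ ≤ 1 →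
        ‖((k • x : W) : EuclideanSpace ℝ (Fin n)) - x‖ ≤ c) →
      ∀ k : K, k • (⟨0, hW (mem_closedBall_self zero_le_one)⟩ : W) =
        ⟨0, hW (mem_closedBall_self zero_le_one)⟩) := by
  have hC : ∀ (K : Type v) [Group K] [TopologicalSpace K] [IsTopologicalGroup K] [CompactSpace K]
      [T2Space K], Vale.Agent.P228.H615.CptStrong K := by
    intro K _ _ _ _ _ S hS h g
    exact Vale.Agent.P228.H796.Cpt.mem_of_homs_cpt
      (Vale.Agent.P228.H752.charStatement_of_pw Vale.Agent.P228.H951.pw) hS h g
  refine ⟨?_, ?_, ?_⟩
  · intro n p _ M _ _ _ _ _ _ _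
    exact Vale.Agent.P228.GRL.hilbertSmith_of_localNewman (Vale.Agent.P228.H951.localNewman p n)
  · intro n M _ _ _ _ G _ _ _ _ _ _
    exact Vale.Agent.P228.H951.final Vale.Agent.P228.H951.pw hC n M G
  · exact Vale.Agent.P228.H951.final_local hC

end Vale.Agent.Results.P228.NoSmallSubgroups
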